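import Vale.Agent.P208.Main
import Vale.Agent.P208.Covering.Seg

/-!
A doubling subset of ℓ₂ without a bi-Lipschitz embedding into any Euclidean space: the negative
answer to the question of Lang and Plaut.
-/

open Metric

namespace Vale.Agent.Results.P208.LangPlautCounterexample

/-- some doubling subset of ℓ₂ has no bi-Lipschitz embedding into any `ℝ^k` -/
theorem result :
    ∃ s : Set (lp (fun _ : ℕ => ℝ) 2),
      (∃ K : ℕ, ∀ p ∈ s, ∀ r : ℝ, 0 < r → ∃ C : Finset (lp (fun _ : ℕ => ℝ) 2),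
        C.card ≤ K ∧ ↑C ⊆ s ∧ s ∩ closedBall p r ⊆ ⋃ c ∈ C, closedBall c (r / 2)) ∧
      ∀ (k : ℕ) (D : ℝ), ¬ ∃ (a : ℝ) (f : s → EuclideanSpace ℝ (Fin k)), 0 < a ∧
        ∀ x y : s, a * dist x y ≤ dist (f x) (f y) ∧ dist (f x) (f y) ≤ D * a * dist x y :=
  Vale.Agent.P208.langPlaut_of_covering Vale.Agent.P208.segCovering_ok

end Vale.Agent.Results.P208.LangPlautCounterexample
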